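import Vale.Agent.P271.LOC9.A9loc
import Vale.Agent.P271.Inst.Stat
import Vale.Agent.P271.Inst.Null

/-!
P271, block LOC9: `A9Stat` of helper570.
-/

open MeasureTheory Filter Topology Metric
open scoped ENNReal

namespace Vale.Agent.P271.LOC9

theorem a9Stat : Inst.A9Stat := by
  intro m a ρ ι _ g g' κ x hρ hg hg' hne hlim hx hκ hint θ hθ0 hθ
  have key := lsc_seq (U := ball a ρ) (z₀ := a) (ball_mem_nhds a hρ) (b := g')
    (fun i => (hg' i).differentiableOn)
    (fun i => Inst.eventually_ae_ne (hg' i a (mem_ball_self hρ)) (hne i)) hκ (by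
      obtain ⟨W, hW, h⟩ := hint
      refine ⟨W, hW, ?_⟩
      refine lt_of_le_of_lt (le_of_eq ?_) h
      refine lintegral_congr fun w => ?_
      rw [dens]
      congr 2
      ring) hθ0 hθ (b' := g) (l := atTop)
    (Eventually.of_forall fun n i => (hg n i).differentiableOn) hlim hx
  filter_upwards [key] with n hn
  obtain ⟨W, hW, h⟩ := hn
  refine ⟨W, hW, ?_⟩
  refine lt_of_le_of_lt (le_of_eq ?_) h
  refine lintegral_congr fun w => ?_
  rw [dens]
  congr 2
  ring

end Vale.Agent.P271.LOC9
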