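import Vale.Agent.P271.H884.Lsc
import Vale.Agent.P271.H884.Poly

/-!
P271, block LOC9: lower semicontinuity (A9) for products of powers of holomorphic functions, from
the analytic core `lsc_core` (helper884).
-/

open MeasureTheory Filter Topology Metric
open scoped ENNReal NNReal ComplexConjugate ContDiff

namespace Vale.Agent.P271.LOC9

open Vale.Agent.P282.L2 Vale.Agent.P271.Dom

variable {n : ℕ} {ι : Type*} [Fintype ι]

/-- the integrand `∏ |b_i|^{-2 k_i}`, with the convention `log 0 = 0` -/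
noncomputable def dens (b : ι → (Fin n → ℂ) → ℂ) (k : ι → ℝ) (z : Fin n → ℂ) : ℝ :=
  Real.exp (-(2 * ∑ i, k i * Real.log ‖b i z‖))

/-- the integrand `∏ |b_i|^{-2 k_i}`, with values in `[0,∞]` -/
noncomputable def edens (b : ι → (Fin n → ℂ) → ℂ) (k : ι → ℝ) (z : Fin n → ℂ) : ℝ≥0∞ :=
  ∏ i, (‖b i z‖ₑ) ^ (-(2 * k i))

theorem prod_ne_zero' {x : ι → ℝ≥0∞} (h : ∀ i, x i ≠ 0) : ∏ i, x i ≠ 0 := by
  rw [Finset.prod_ne_zero_iff]
  exact fun i _ => h i

theorem enorm_rpow_ne_zero {w : ℂ} {k : ℝ} (hk : 0 ≤ k) : (‖w‖ₑ) ^ (-(2 * k)) ≠ 0 := by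
  rw [ENNReal.rpow_neg]
  refine ENNReal.inv_ne_zero.2 ?_
  exact ENNReal.rpow_ne_top_of_nonneg (by positivity) enorm_ne_top

theorem dens_le_edens {b : ι → (Fin n → ℂ) → ℂ} {k : ι → ℝ} (hk : ∀ i, 0 ≤ k i)
    (z : Fin n → ℂ) : ENNReal.ofReal (dens b k z) ≤ edens b k z := by
  by_cases h : ∀ i, k i = 0 ∨ b i z ≠ 0
  · have h1 : dens b k z = ∏ i, Real.exp (-(2 * (k i * Real.log ‖b i z‖))) := by
      rw [dens, ← Real.exp_sum, Finset.mul_sum, Finset.sum_neg_distrib]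
    rw [h1, edens, ENNReal.ofReal_prod_of_nonneg fun i _ => (Real.exp_pos _).le]
    refine Finset.prod_le_prod' fun i _ => ?_
    rcases h i with h2 | h2
    · simp [h2]
    · have h3 : 0 < ‖b i z‖ := norm_pos_iff.2 h2
      rw [← ofReal_norm, ENNReal.ofReal_rpow_of_pos h3,
        Real.rpow_def_of_pos h3]
      refine ENNReal.ofReal_le_ofReal (le_of_eq ?_)
      congr 1
      ring
  · push Not at h
    obtain ⟨i, hi, hz⟩ := h
    have h1 : edens b k z = ⊤ := by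
      classical
      rw [edens, ← Finset.mul_prod_erase _ _ (Finset.mem_univ i), hz, enorm_zero,
        ENNReal.zero_rpow_of_neg, ENNReal.top_mul]
      · rw [Finset.prod_ne_zero_iff]
        exact fun j _ => enorm_rpow_ne_zero (hk j)
      · have := lt_of_le_of_ne (hk i) (Ne.symm hi)
        linarith
    rw [h1]
    exact le_top

/-! ### The smooth weights -/

/-- the smooth approximations of the weight -/
noncomputable def wt (B δ : ℝ) (b : ι → (Fin n → ℂ) → ℂ) (k : ι → ℝ) (z : Fin n → ℂ) : ℝ :=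
  ∑ i, (k i / 2) * (Real.log (‖b i z‖ ^ 2 + δ) - Real.log B)

theorem cda_log {U : Set (Fin n → ℂ)} (hU : IsOpen U) {f : (Fin n → ℂ) → ℂ}
    (hf : DifferentiableOn ℂ f U) {δ : ℝ} (hδ : 0 < δ) {z : Fin n → ℂ} (hz : z ∈ U) :
    ContDiffAt ℝ 2 (fun z => Real.log (‖f z‖ ^ 2 + δ)) z := by
  have h1 : ContDiffAt ℝ 2 (fun z => ‖f z‖ ^ 2 + δ) z :=
    (normSq_cda hU hf hz 2).add contDiffAt_const
  refine h1.log ?_
  positivity

theorem wt_cda {B δ : ℝ} (hδ : 0 < δ) {b : ι → (Fin n → ℂ) → ℂ} {k : ι → ℝ}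
    {U : Set (Fin n → ℂ)} (hU : IsOpen U) (hb : ∀ i, DifferentiableOn ℂ (b i) U)
    {z : Fin n → ℂ} (hz : z ∈ U) : ContDiffAt ℝ 2 (wt B δ b k) z := by
  unfold wt
  refine ContDiffAt.sum fun i _ => ?_
  exact contDiffAt_const.mul ((cda_log hU (hb i) hδ hz).sub contDiffAt_const)

theorem wt_levi {B δ : ℝ} (hδ : 0 < δ) {b : ι → (Fin n → ℂ) → ℂ} {k : ι → ℝ}
    (hk : ∀ i, 0 ≤ k i) {U : Set (Fin n → ℂ)} (hU : IsOpen U)
    (hb : ∀ i, DifferentiableOn ℂ (b i) U) {z : Fin n → ℂ} (hz : z ∈ U) (β : Fin n → ℂ) :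
    0 ≤ leviF (wt B δ b k) β z := by
  unfold wt
  have h1 : ∀ i, ContDiffAt ℝ 2 (fun z => Real.log (‖b i z‖ ^ 2 + δ) - Real.log B) z :=
    fun i => (cda_log hU (hb i) hδ hz).sub contDiffAt_const
  rw [leviF_sum Finset.univ fun i _ => contDiffAt_const.mul (h1 i)]
  refine Finset.sum_nonneg fun i _ => ?_
  rw [leviF_const_mul (h1 i), leviF_sub_const (cda_log hU (hb i) hδ hz),
    leviF_log_normSq hU (hb i) hz hδ]
  have := hk i
  positivity

theorem wt_nonpos {B δ : ℝ} (hδ : 0 < δ) {b : ι → (Fin n → ℂ) → ℂ} {k : ι → ℝ}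
    (hk : ∀ i, 0 ≤ k i) {z : Fin n → ℂ} (h : ∀ i, ‖b i z‖ ^ 2 + δ ≤ B) : wt B δ b k z ≤ 0 := by
  unfold wt
  refine Finset.sum_nonpos fun i _ => ?_
  refine mul_nonpos_of_nonneg_of_nonpos (by have := hk i; positivity) ?_
  have h1 : Real.log (‖b i z‖ ^ 2 + δ) ≤ Real.log B := Real.log_le_log (by positivity) (h i)
  linarith

theorem wt_ge {B δ : ℝ} (hδ : 0 < δ) {b : ι → (Fin n → ℂ) → ℂ} {k : ι → ℝ}
    (hk : ∀ i, 0 ≤ k i) (z : Fin n → ℂ) :
    ∑ i, (k i / 2) * (Real.log δ - Real.log B) ≤ wt B δ b k z := by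
  unfold wt
  refine Finset.sum_le_sum fun i _ => ?_
  refine mul_le_mul_of_nonneg_left ?_ (by have := hk i; positivity)
  have h1 : Real.log δ ≤ Real.log (‖b i z‖ ^ 2 + δ) :=
    Real.log_le_log hδ (by nlinarith [sq_nonneg ‖b i z‖])
  linarith

/-- the weight as a function of the `|b_i|²` -/
noncomputable def FF (B : ℝ) (k : ι → ℝ) (t : ι → ℝ) : ℝ := ∏ i, (t i / B) ^ (k i / 2)

theorem wt_exp {B δ : ℝ} (hB : 0 < B) (hδ : 0 < δ) {b : ι → (Fin n → ℂ) → ℂ} {k : ι → ℝ}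
    (z : Fin n → ℂ) : Real.exp (wt B δ b k z) = FF B k fun i => ‖b i z‖ ^ 2 + δ := by
  unfold wt FF
  rw [Real.exp_sum]
  refine Finset.prod_congr rfl fun i _ => ?_
  have h1 : 0 < ‖b i z‖ ^ 2 + δ := by positivity
  rw [← Real.log_div h1.ne' hB.ne', Real.rpow_def_of_pos (by positivity), mul_comm]

theorem FF_cont (B : ℝ) {k : ι → ℝ} (hk : ∀ i, 0 ≤ k i) : Continuous (FF B k) := by
  unfold FF
  refine continuous_finsetProd _ fun i _ => ?_
  refine Continuous.rpow_const ?_ fun x => Or.inr (by have := hk i; positivity)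
  have h1 : Continuous fun t : ι → ℝ => t i := continuous_apply i
  exact h1.div_const B

theorem FF_pos {B : ℝ} (hB : 0 < B) {k : ι → ℝ} {t : ι → ℝ} (ht : ∀ i, 0 < t i) :
    0 < FF B k t :=
  Finset.prod_pos fun i _ => Real.rpow_pos_of_pos (div_pos (ht i) hB) _

theorem FF_unif {B : ℝ} {k : ι → ℝ} (hk : ∀ i, 0 ≤ k i) {ε : ℝ} (hε : 0 < ε) :
    ∃ δ : ℝ, 0 < δ ∧ ∀ s t : ι → ℝ, (∀ i, 0 ≤ s i ∧ s i ≤ B) → (∀ i, 0 ≤ t i ∧ t i ≤ B) →
      (∀ i, |s i - t i| < δ) → |FF B k s - FF B k t| ≤ ε := by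
  have hK : IsCompact (Set.univ.pi fun _ : ι => Set.Icc (0:ℝ) B) :=
    isCompact_univ_pi fun _ => isCompact_Icc
  have h1 := hK.uniformContinuousOn_of_continuous (FF_cont B hk).continuousOn
  rw [Metric.uniformContinuousOn_iff] at h1
  obtain ⟨δ, hδ, h⟩ := h1 ε hε
  refine ⟨δ, hδ, fun s t hs ht hst => ?_⟩
  have h2 := h s (Set.mem_univ_pi.2 fun i => hs i) t (Set.mem_univ_pi.2 fun i => ht i) (by
    rw [dist_pi_lt_iff hδ]
    intro i
    rw [Real.dist_eq]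
    exact hst i)
  rw [Real.dist_eq] at h2
  exact h2.le

/-- bound for the gradient on relatively compact subsets -/
theorem dzb_bound {ψ : (Fin n → ℂ) → ℝ} {U K : Set (Fin n → ℂ)} (hU : IsOpen U)
    (hψ : ContDiffOn ℝ 2 ψ U) (hK : IsCompact K) (hKU : K ⊆ U) :
    ∃ c : ℝ, 0 ≤ c ∧ ∀ z ∈ K, ∀ j, ‖dzb j (fun z => (ψ z : ℂ)) z‖ ≤ c := by
  have h1 : ContDiffOn ℝ 2 (fun z => (ψ z : ℂ)) U := Complex.ofRealCLM.contDiff.comp_contDiffOn hψ
  have h2 : ∀ j, ∃ c : ℝ, ∀ z ∈ K, ‖dzb j (fun z => (ψ z : ℂ)) z‖ ≤ c := by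
    intro j
    have h3 : ContinuousOn (dzb j (fun z => (ψ z : ℂ))) K :=
      ((contDiffOn_dzb (m := 1) hU (by simpa using h1)).continuousOn).mono hKU
    obtain ⟨c, hc⟩ := hK.exists_bound_of_continuousOn h3
    exact ⟨c, hc⟩
  choose c hc using h2
  refine ⟨∑ j, |c j|, Finset.sum_nonneg fun _ _ => abs_nonneg _, fun z hz j => ?_⟩
  calc _ ≤ c j := hc j z hz
    _ ≤ |c j| := le_abs_self _
    _ ≤ ∑ j, |c j| := Finset.single_le_sum (f := fun j => |c j|) (fun _ _ => abs_nonneg _)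
        (Finset.mem_univ j)

/-! ### Limits -/

theorem tendsto_prod_ennreal {κ : Type*} (s : Finset κ) {f : κ → ℕ → ℝ≥0∞} {a : κ → ℝ≥0∞}
    (h : ∀ i ∈ s, Tendsto (f i) atTop (𝓝 (a i))) (h0 : ∀ i ∈ s, a i ≠ 0) :
    Tendsto (fun m => ∏ i ∈ s, f i m) atTop (𝓝 (∏ i ∈ s, a i)) := by
  classical
  induction s using Finset.induction_on with
  | empty => simp
  | insert i s hi ih =>
    simp only [Finset.prod_insert hi]
    have h1 := ih (fun j hj => h j (Finset.mem_insert_of_mem hj))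
      (fun j hj => h0 j (Finset.mem_insert_of_mem hj))
    have h2 : ∏ i ∈ s, a i ≠ 0 := by
      rw [Finset.prod_ne_zero_iff]
      exact fun j hj => h0 j (Finset.mem_insert_of_mem hj)
    exact ENNReal.Tendsto.mul (h i (Finset.mem_insert_self i s))
      (Or.inl (h0 i (Finset.mem_insert_self i s))) h1 (Or.inl h2)

/-- the regularised integrands -/
noncomputable def GG (δ : ℝ) (b : ι → (Fin n → ℂ) → ℂ) (k : ι → ℝ) (z : Fin n → ℂ) : ℝ≥0∞ :=
  ∏ i, (ENNReal.ofReal (‖b i z‖ ^ 2 + δ)) ^ (-k i)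

theorem GG_le {B δ θ : ℝ} (hB : 1 ≤ B) (hδ : 0 < δ) (hθ : 0 ≤ θ) {b : ι → (Fin n → ℂ) → ℂ}
    {k : ι → ℝ} (hk : ∀ i, 0 ≤ k i) (z : Fin n → ℂ) :
    GG δ b (fun i => θ * k i) z ≤ ENNReal.ofReal (Real.exp (-(2 * θ * wt B δ b k z))) := by
  have h1 : GG δ b (fun i => θ * k i) z =
      ENNReal.ofReal (Real.exp (∑ i, -(θ * k i) * Real.log (‖b i z‖ ^ 2 + δ))) := by
    unfold GG
    rw [Real.exp_sum, ENNReal.ofReal_prod_of_nonneg fun i _ => (Real.exp_pos _).le]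
    refine Finset.prod_congr rfl fun i _ => ?_
    have h2 : 0 < ‖b i z‖ ^ 2 + δ := by positivity
    rw [ENNReal.ofReal_rpow_of_pos h2, Real.rpow_def_of_pos h2, mul_comm]
  rw [h1]
  refine ENNReal.ofReal_le_ofReal (Real.exp_le_exp.2 ?_)
  unfold wt
  rw [Finset.mul_sum, ← Finset.sum_neg_distrib]
  refine Finset.sum_le_sum fun i _ => ?_
  have h3 : 0 ≤ Real.log B := Real.log_nonneg hB
  have h4 := hk i
  have h5 : 0 ≤ θ * k i * Real.log B := by positivity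
  nlinarith

theorem GG_tendsto {δ : ℕ → ℝ} (hδ : Tendsto δ atTop (𝓝 0)) {b : ι → (Fin n → ℂ) → ℂ}
    {k : ι → ℝ} (hk : ∀ i, 0 ≤ k i) (z : Fin n → ℂ) :
    Tendsto (fun m => GG (δ m) b k z) atTop (𝓝 (edens b k z)) := by
  unfold GG edens
  refine tendsto_prod_ennreal _ (fun i _ => ?_) fun i _ => enorm_rpow_ne_zero (hk i)
  have h1 : Tendsto (fun m => ENNReal.ofReal (‖b i z‖ ^ 2 + δ m)) atTop
      (𝓝 (ENNReal.ofReal (‖b i z‖ ^ 2))) := by
    refine ENNReal.tendsto_ofReal ?_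
    simpa using hδ.const_add (‖b i z‖ ^ 2)
  have h2 : (‖b i z‖ₑ) ^ (-(2 * k i)) = (ENNReal.ofReal (‖b i z‖ ^ 2)) ^ (-k i) := by
    rw [← Real.rpow_natCast, ← ENNReal.ofReal_rpow_of_nonneg (norm_nonneg _) (by norm_num),
      ofReal_norm, ← ENNReal.rpow_mul]
    congr 1
    push_cast
    ring
  rw [h2]
  exact (ENNReal.continuous_rpow_const.tendsto _).comp h1

theorem GG_aemeas {δ : ℝ} {b : ι → (Fin n → ℂ) → ℂ} {k : ι → ℝ} {U : Set (Fin n → ℂ)}
    (hU : MeasurableSet U) (hb : ∀ i, ContinuousOn (b i) U) :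
    AEMeasurable (GG δ b k) (volume.restrict U) := by
  unfold GG
  refine Finset.aemeasurable_fun_prod _ fun i _ => ?_
  refine AEMeasurable.pow_const (ENNReal.measurable_ofReal.comp_aemeasurable ?_) _
  exact ((((hb i).norm.pow 2).add continuousOn_const).aemeasurable hU)

/-- **(A9)** lower semicontinuity, uniform form. -/
theorem lsc_prod {z₀ : Fin n → ℂ} {R r : ℝ} (hr : 0 < r) (hrR : r < R)
    {b : ι → (Fin n → ℂ) → ℂ} (hb : ∀ i, DifferentiableOn ℂ (b i) (ball z₀ R))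
    (hb0 : ∀ i, ∀ᵐ z ∂(volume.restrict (ball z₀ R)), b i z ≠ 0)
    {k : ι → ℝ} (hk : ∀ i, 0 ≤ k i)
    (hint : ∫⁻ z in ball z₀ R, ENNReal.ofReal (dens b k z) < ⊤)
    {θ : ℝ} (hθ0 : 0 ≤ θ) (hθ : θ < 1) :
    ∃ ε : ℝ, 0 < ε ∧ ∃ C : ℝ, 0 ≤ C ∧ ∀ b' : ι → (Fin n → ℂ) → ℂ,
      (∀ i, DifferentiableOn ℂ (b' i) (ball z₀ R)) →
      (∀ i, ∀ z ∈ ball z₀ R, ‖b' i z - b i z‖ ≤ ε) →
      ∫⁻ z in ball z₀ r, edens b' (fun i => θ * k i) z ≤ ENNReal.ofReal C := by
  have hR : 0 < R := hr.trans hrR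
  set R' : ℝ := (r + R) / 2 with hR'
  set ρ : ℝ := (R - r) / 2 with hρ
  have hρ0 : 0 < ρ := by rw [hρ]; linarith
  have hR'0 : 0 < R' := by rw [hR']; linarith
  have hR'R : R' < R := by rw [hR']; linarith
  have hVR : ball z₀ R' ⊆ ball z₀ R := ball_subset_ball hR'R.le
  have hKR : closedBall z₀ R' ⊆ ball z₀ R := closedBall_subset_ball hR'R
  have hK : IsCompact (closedBall z₀ R') := isCompact_closedBall z₀ R'
  -- bound for the `b i`
  obtain ⟨M, hM0, hM⟩ : ∃ M : ℝ, 0 ≤ M ∧ ∀ i, ∀ z ∈ closedBall z₀ R', ‖b i z‖ ≤ M := by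
    have h1 : ∀ i, ∃ c : ℝ, ∀ z ∈ closedBall z₀ R', ‖b i z‖ ≤ c := fun i =>
      hK.exists_bound_of_continuousOn ((hb i).continuousOn.mono hKR)
    choose c hc using h1
    refine ⟨∑ i, |c i|, Finset.sum_nonneg fun _ _ => abs_nonneg _, fun i z hz => ?_⟩
    calc _ ≤ c i := hc i z hz
      _ ≤ |c i| := le_abs_self _
      _ ≤ ∑ i, |c i| := Finset.single_le_sum (f := fun i => |c i|) (fun _ _ => abs_nonneg _)
          (Finset.mem_univ i)
  set B : ℝ := (M + 1) ^ 2 + 1 with hB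
  have hB1 : 1 ≤ B := by rw [hB]; nlinarith [sq_nonneg (M + 1)]
  have hB0 : 0 < B := by linarith
  set g : (Fin n → ℂ) → ℝ := fun z => FF B k fun i => ‖b i z‖ ^ 2 with hg
  have hgc : ContinuousOn g (ball z₀ R') := by
    refine (FF_cont B hk).comp_continuousOn ?_
    exact continuousOn_pi.2 fun i => ((hb i).continuousOn.mono hVR).norm.pow 2
  have hb0' : ∀ᵐ z ∂(volume.restrict (ball z₀ R')), ∀ i, b i z ≠ 0 := by
    rw [ae_all_iff]
    exact fun i => ae_mono (Measure.restrict_mono hVR le_rfl) (hb0 i)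
  -- the integral of `g⁻²`
  have hgi : ∫⁻ z in ball z₀ R', ENNReal.ofReal ((g z ^ 2)⁻¹) < ⊤ := by
    have h1 : ∀ᵐ z ∂(volume.restrict (ball z₀ R')), ENNReal.ofReal ((g z ^ 2)⁻¹) =
        ENNReal.ofReal (Real.exp (∑ i, k i * Real.log B)) * ENNReal.ofReal (dens b k z) := by
      filter_upwards [hb0'] with z hz
      have h2 : g z = Real.exp (∑ i, (k i / 2) * (2 * Real.log ‖b i z‖ - Real.log B)) := by
        rw [hg]
        simp only [FF]
        rw [Real.exp_sum]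
        refine Finset.prod_congr rfl fun i _ => ?_
        have h3 : 0 < ‖b i z‖ := norm_pos_iff.2 (hz i)
        have h4 : Real.log (‖b i z‖ ^ 2 / B) = 2 * Real.log ‖b i z‖ - Real.log B := by
          rw [Real.log_div (by positivity) hB0.ne', Real.log_pow]
          push_cast
          ring
        rw [Real.rpow_def_of_pos (by positivity), h4, mul_comm]
      rw [h2, dens, ← ENNReal.ofReal_mul (Real.exp_pos _).le, ← Real.exp_add,
        ← Real.exp_nat_mul, ← Real.exp_neg]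
      congr 2
      push_cast
      rw [Finset.mul_sum, Finset.mul_sum, ← Finset.sum_neg_distrib, ← Finset.sum_neg_distrib,
        ← Finset.sum_add_distrib]
      refine Finset.sum_congr rfl fun i _ => ?_
      ring
    rw [lintegral_congr_ae h1, lintegral_const_mul' _ _ ENNReal.ofReal_ne_top]
    refine ENNReal.mul_lt_top ENNReal.ofReal_lt_top ?_
    exact (lintegral_mono_set hVR).trans_lt hint
  set A : ℝ := (∫⁻ z in ball z₀ R', ENNReal.ofReal ((g z ^ 2)⁻¹)).toReal with hA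
  have hA0 : 0 ≤ A := ENNReal.toReal_nonneg
  obtain ⟨ε₁, hε₁, B₁, hB₁, hcore⟩ := lsc_core (n := n) hθ0 hθ hA0 hρ0
  obtain ⟨δ₀, hδ₀, hF⟩ := FF_unif (B := B) hk hε₁
  obtain ⟨p, C, hC, hE⟩ := exh_ball (z₀ := z₀) hR'0
  set ε : ℝ := min 1 (δ₀ / (2 * (2 * M + 1))) with hε
  have hε0 : 0 < ε := by
    refine lt_min one_pos ?_
    positivity
  have hε1 : ε ≤ 1 := min_le_left _ _
  have hε2 : ε * (2 * M + 1) ≤ δ₀ / 2 := by
    calc ε * (2 * M + 1) ≤ δ₀ / (2 * (2 * M + 1)) * (2 * M + 1) := by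
          refine mul_le_mul_of_nonneg_right (min_le_right _ _) (by positivity)
      _ = δ₀ / 2 := by
          field_simp
  refine ⟨ε, hε0, B₁, hB₁, fun b' hb' hclose => ?_⟩
  set η : ℝ := min 1 (δ₀ / 4) with hη
  have hη0 : 0 < η := lt_min one_pos (by positivity)
  set δ : ℕ → ℝ := fun m => η / (m + 1) with hδ
  have hδ0 : ∀ m, 0 < δ m := fun m => by positivity
  have hδ1 : ∀ m, δ m ≤ η := fun m => by
    refine div_le_self hη0.le ?_
    have : (0:ℝ) ≤ m := Nat.cast_nonneg m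
    linarith
  have hη1 : η ≤ 1 := min_le_left _ _
  have hη2 : η ≤ δ₀ / 4 := min_le_right _ _
  have hδt : Tendsto δ atTop (𝓝 0) := by
    have h1 : Tendsto (fun m : ℕ => η * (1 / ((m : ℝ) + 1))) atTop (𝓝 (η * 0)) :=
      tendsto_one_div_add_atTop_nhds_zero_nat.const_mul η
    rw [mul_zero] at h1
    refine h1.congr fun m => ?_
    rw [hδ]
    ring
  have hb'n : ∀ i, ∀ z ∈ ball z₀ R', ‖b' i z‖ ≤ M + 1 := by
    intro i z hz
    have h1 := hclose i z (hVR hz)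
    have h2 := hM i z (ball_subset_closedBall hz)
    have h3 : ‖b' i z‖ ≤ ‖b' i z - b i z‖ + ‖b i z‖ := by
      calc ‖b' i z‖ = ‖(b' i z - b i z) + b i z‖ := by ring_nf
        _ ≤ _ := norm_add_le _ _
    linarith
  have hmain : ∀ m, ∫⁻ z in ball z₀ r,
      ENNReal.ofReal (Real.exp (-(2 * θ * wt B (δ m) b' k z))) ≤ ENNReal.ofReal B₁ := by
    intro m
    have hcd : ContDiffOn ℝ 2 (wt B (δ m) b' k) (ball z₀ R) := fun z hz =>
      (wt_cda (hδ0 m) isOpen_ball hb' hz).contDiffWithinAt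
    obtain ⟨c', -, hc'⟩ := dzb_bound isOpen_ball hcd hK hKR
    refine hcore (ball z₀ R') isOpen_ball p C 4 hE (wt B (δ m) b' k) g (hcd.mono hVR)
      (fun z hz β => wt_levi (hδ0 m) hk isOpen_ball hb' (hVR hz) β)
      ⟨_, fun z _ => wt_ge (hδ0 m) hk z⟩ (fun z hz => ?_)
      ⟨c', 0, fun z hz j => ?_⟩ (hgc.aemeasurable measurableSet_ball) ?_ ?_
      (ball z₀ r) measurableSet_ball ?_
    · refine wt_nonpos (hδ0 m) hk fun i => ?_
      have h1 := hb'n i z hz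
      have h2 : ‖b' i z‖ ^ 2 ≤ (M + 1) ^ 2 := by gcongr
      have h3 := hδ1 m
      rw [hB]
      linarith
    · rw [pow_zero, mul_one]
      exact hc' z (ball_subset_closedBall hz) j
    · filter_upwards [hb0', ae_restrict_mem measurableSet_ball] with z hz hzV
      refine ⟨FF_pos hB0 fun i => ?_, ?_⟩
      · have := norm_pos_iff.2 (hz i)
        positivity
      · rw [wt_exp hB0 (hδ0 m)]
        refine hF _ _ (fun i => ⟨?_, ?_⟩) (fun i => ⟨?_, ?_⟩) fun i => ?_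
        · have := (hδ0 m).le
          positivity
        · have h1 := hb'n i z hzV
          have h2 : ‖b' i z‖ ^ 2 ≤ (M + 1) ^ 2 := by gcongr
          have h3 := hδ1 m
          rw [hB]
          linarith
        · positivity
        · have h1 := hM i z (ball_subset_closedBall hzV)
          have h2 : ‖b i z‖ ^ 2 ≤ (M + 1) ^ 2 := by
            gcongr
            linarith
          rw [hB]
          linarith
        · have h1 := hb'n i z hzV
          have h2 := hM i z (ball_subset_closedBall hzV)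
          have h3 := hclose i z (hVR hzV)
          have h4 : |‖b' i z‖ - ‖b i z‖| ≤ ε := (abs_norm_sub_norm_le _ _).trans h3
          have h5 : |‖b' i z‖ ^ 2 - ‖b i z‖ ^ 2| ≤ ε * (2 * M + 1) := by
            have h6 : ‖b' i z‖ ^ 2 - ‖b i z‖ ^ 2 =
              (‖b' i z‖ - ‖b i z‖) * (‖b' i z‖ + ‖b i z‖) := by ring
            rw [h6, abs_mul]
            have h7 : |‖b' i z‖ + ‖b i z‖| ≤ 2 * M + 1 := by
              rw [abs_of_nonneg (by positivity)]
              linarith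
            exact mul_le_mul h4 h7 (abs_nonneg _) hε0.le
          have h8 := hδ1 m
          have h9 := hδ0 m
          rw [abs_lt]
          rw [abs_le] at h5
          constructor <;> linarith
    · rw [hA, ENNReal.ofReal_toReal hgi.ne]
    · intro z hz
      refine ball_subset_ball' ?_
      rw [mem_ball] at hz
      rw [hρ, hR']
      linarith
  calc ∫⁻ z in ball z₀ r, edens b' (fun i => θ * k i) z
      = ∫⁻ z in ball z₀ r, liminf (fun m => GG (δ m) b' (fun i => θ * k i) z) atTop := by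
        refine lintegral_congr fun z => ?_
        exact ((GG_tendsto hδt (fun i => mul_nonneg hθ0 (hk i)) z).liminf_eq).symm
    _ ≤ liminf (fun m => ∫⁻ z in ball z₀ r, GG (δ m) b' (fun i => θ * k i) z) atTop := by
        refine lintegral_liminf_le' fun m => ?_
        exact GG_aemeas measurableSet_ball fun i =>
          (hb' i).continuousOn.mono (ball_subset_ball hrR.le)
    _ ≤ ENNReal.ofReal B₁ := by
        refine liminf_le_of_le (by isBoundedDefault) fun x hx => ?_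
        obtain ⟨m, hm⟩ := hx.exists
        refine hm.trans (le_trans ?_ (hmain m))
        exact lintegral_mono fun z => GG_le hB1 (hδ0 m) hθ0 hk z

/-- (A9) in the form with `log 0 = 0`. -/
theorem lsc_dens {z₀ : Fin n → ℂ} {R r : ℝ} (hr : 0 < r) (hrR : r < R)
    {b : ι → (Fin n → ℂ) → ℂ} (hb : ∀ i, DifferentiableOn ℂ (b i) (ball z₀ R))
    (hb0 : ∀ i, ∀ᵐ z ∂(volume.restrict (ball z₀ R)), b i z ≠ 0)
    {k : ι → ℝ} (hk : ∀ i, 0 ≤ k i)
    (hint : ∫⁻ z in ball z₀ R, ENNReal.ofReal (dens b k z) < ⊤)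
    {θ : ℝ} (hθ0 : 0 ≤ θ) (hθ : θ < 1) :
    ∃ ε : ℝ, 0 < ε ∧ ∃ C : ℝ, 0 ≤ C ∧ ∀ b' : ι → (Fin n → ℂ) → ℂ,
      (∀ i, DifferentiableOn ℂ (b' i) (ball z₀ R)) →
      (∀ i, ∀ z ∈ ball z₀ R, ‖b' i z - b i z‖ ≤ ε) →
      ∫⁻ z in ball z₀ r, ENNReal.ofReal (dens b' (fun i => θ * k i) z) ≤ ENNReal.ofReal C := by
  obtain ⟨ε, hε, C, hC, h⟩ := lsc_prod hr hrR hb hb0 hk hint hθ0 hθ
  refine ⟨ε, hε, C, hC, fun b' hb' hc => le_trans ?_ (h b' hb' hc)⟩
  exact lintegral_mono fun z => dens_le_edens (fun i => mul_nonneg hθ0 (hk i)) z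

end Vale.Agent.P271.LOC9
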