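import Vale.Agent.P271.LOC9.A9

/-!
P271, block LOC9: lower semicontinuity (A9), local forms.
-/

open MeasureTheory Filter Topology Metric
open scoped ENNReal NNReal ComplexConjugate ContDiff

namespace Vale.Agent.P271.LOC9

variable {n : ℕ} {ι : Type*} [Fintype ι]

/-- `∏ |b_i|^{-2 k_i}` is integrable near `z`. -/
def LocInt (b : ι → (Fin n → ℂ) → ℂ) (k : ι → ℝ) (z : Fin n → ℂ) : Prop :=
  ∃ W ∈ 𝓝 z, ∫⁻ w in W, ENNReal.ofReal (dens b k w) < ⊤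

/-- **(A9)**, all nearby points and nearby families. -/
theorem lsc_nhds {U : Set (Fin n → ℂ)} {z₀ : Fin n → ℂ} (hU : U ∈ 𝓝 z₀)
    {b : ι → (Fin n → ℂ) → ℂ} (hb : ∀ i, DifferentiableOn ℂ (b i) U)
    (hb0 : ∀ i, ∀ᶠ z in 𝓝 z₀ ⊓ ae volume, b i z ≠ 0) {k : ι → ℝ} (hk : ∀ i, 0 ≤ k i)
    (hint : LocInt b k z₀) {θ : ℝ} (hθ0 : 0 ≤ θ) (hθ : θ < 1) :
    ∃ R₀ : ℝ, 0 < R₀ ∧ ball z₀ R₀ ⊆ U ∧ ∀ R : ℝ, 0 < R → R ≤ R₀ → ∀ r : ℝ, 0 < r → r < R →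
      ∃ ε : ℝ, 0 < ε ∧ ∃ C : ℝ, 0 ≤ C ∧ ∀ b' : ι → (Fin n → ℂ) → ℂ,
        (∀ i, DifferentiableOn ℂ (b' i) (ball z₀ R)) →
        (∀ i, ∀ z ∈ ball z₀ R, ‖b' i z - b i z‖ ≤ ε) →
        (∫⁻ z in ball z₀ r, edens b' (fun i => θ * k i) z ≤ ENNReal.ofReal C) ∧
        ∀ z' ∈ ball z₀ r, LocInt b' (fun i => θ * k i) z' := by
  obtain ⟨W, hW, hWi⟩ := hint
  obtain ⟨R₁, hR₁, hR₁s⟩ := Metric.mem_nhds_iff.1 (inter_mem hU hW)
  have h2 : ∀ i, ∃ e > 0, ∀ᵐ z ∂(volume : Measure (Fin n → ℂ)), z ∈ ball z₀ e → b i z ≠ 0 := by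
    intro i
    obtain ⟨V, hV, T, hT, hVT⟩ := Filter.mem_inf_iff_superset.1 (hb0 i)
    obtain ⟨e, he, heV⟩ := Metric.mem_nhds_iff.1 hV
    refine ⟨e, he, ?_⟩
    filter_upwards [hT] with z hz hze
    exact hVT ⟨heV hze, hz⟩
  choose e he hen using h2
  obtain ⟨R₂, hR₂, hR₂s⟩ : ∃ R₂ : ℝ, 0 < R₂ ∧ ∀ i, R₂ ≤ e i := by
    rcases isEmpty_or_nonempty ι with h | h
    · exact ⟨1, one_pos, fun i => (h.false i).elim⟩
    · obtain ⟨i₀, hi₀⟩ := Finite.exists_min e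
      exact ⟨e i₀, he i₀, hi₀⟩
  refine ⟨min R₁ R₂, lt_min hR₁ hR₂, ?_, fun R hR hRle r hr hrR => ?_⟩
  · exact fun z hz => (hR₁s (ball_subset_ball (min_le_left _ _) hz)).1
  · have hsub : ball z₀ R ⊆ ball z₀ R₁ := ball_subset_ball (hRle.trans (min_le_left _ _))
    have hae : ∀ i, ∀ᵐ z ∂(volume.restrict (ball z₀ R)), b i z ≠ 0 := by
      intro i
      rw [ae_restrict_iff' measurableSet_ball]
      filter_upwards [hen i] with z hz hzR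
      exact hz (ball_subset_ball ((hRle.trans (min_le_right _ _)).trans (hR₂s i)) hzR)
    obtain ⟨ε, hε, C, hC, h⟩ := lsc_prod hr hrR
      (fun i => (hb i).mono fun z hz => (hR₁s (hsub hz)).1) hae hk
      ((lintegral_mono_set fun z hz => (hR₁s (hsub hz)).2).trans_lt hWi) hθ0 hθ
    refine ⟨ε, hε, C, hC, fun b' hb' hc => ⟨h b' hb' hc, fun z' hz' => ?_⟩⟩
    refine ⟨ball z₀ r, isOpen_ball.mem_nhds hz', ?_⟩
    refine lt_of_le_of_lt ?_ ((h b' hb' hc).trans_lt ENNReal.ofReal_lt_top)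
    exact lintegral_mono fun z => dens_le_edens (fun i => mul_nonneg hθ0 (hk i)) z

/-- **(A9)**, sequences: `b_j → b` uniformly near `z₀` and `z_j → z₀`. -/
theorem lsc_seq {U : Set (Fin n → ℂ)} {z₀ : Fin n → ℂ} (hU : U ∈ 𝓝 z₀)
    {b : ι → (Fin n → ℂ) → ℂ} (hb : ∀ i, DifferentiableOn ℂ (b i) U)
    (hb0 : ∀ i, ∀ᶠ z in 𝓝 z₀ ⊓ ae volume, b i z ≠ 0) {k : ι → ℝ} (hk : ∀ i, 0 ≤ k i)
    (hint : LocInt b k z₀) {θ : ℝ} (hθ0 : 0 ≤ θ) (hθ : θ < 1)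
    {α : Type*} {l : Filter α} {b' : α → ι → (Fin n → ℂ) → ℂ}
    (hb' : ∀ᶠ a in l, ∀ i, DifferentiableOn ℂ (b' a i) U)
    (hlim : ∀ i, TendstoUniformlyOn (fun a => b' a i) (b i) l U)
    {z : α → Fin n → ℂ} (hz : Tendsto z l (𝓝 z₀)) :
    ∀ᶠ a in l, LocInt (b' a) (fun i => θ * k i) (z a) := by
  obtain ⟨R, hR, hRU, h⟩ := lsc_nhds hU hb hb0 hk hint hθ0 hθ
  obtain ⟨ε, hε, C, hC, h⟩ := h R hR le_rfl (R / 2) (by positivity) (by linarith)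
  have h1 : ∀ᶠ a in l, ∀ i, ∀ z ∈ U, dist (b i z) (b' a i z) < ε := by
    rw [Filter.eventually_all]
    intro i
    exact Metric.tendstoUniformlyOn_iff.1 (hlim i) ε hε
  filter_upwards [h1, hb', hz.eventually (ball_mem_nhds z₀ (half_pos hR))] with a ha hba hza
  refine (h (b' a) (fun i => (hba i).mono hRU) (fun i w hw => ?_)).2 (z a) hza
  have h2 := ha i w (hRU hw)
  rw [dist_comm, dist_eq_norm] at h2
  exact h2.le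

end Vale.Agent.P271.LOC9
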